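import Vale.Agent.P181.DG9.H207.All
import Vale.Agent.P181.DU.H207.Main
import Vale.Agent.P181.DU.H247.Shift
import Vale.Agent.P181.DU.H556.Low
import Vale.Agent.P181.DU.W7.Flow
import Vale.Agent.P181.DU8.MainU
import Vale.Agent.P181.DU9.H924.WU.Main

set_option autoImplicit false

/-!
# P181, DU: the theorem for `b ≥ a + polylog`, without hypotheses
-/

namespace Vale.Agent.P181.DU

open Vale.Agent.P181.SZ Vale.Agent.P181.DG

/-- (W4) -/
theorem shiftT : S317.ShiftT := H247.shiftT1 DGx.H831.kerStmt DG0.transT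

/-- (U8) -/
theorem asmU : AsmU :=
  DU8.asmU DGx.H831.monoT DG2.H398.upT H556.lowU DG9.disT shiftT DG5.fewT DG6.H887.markT
    S317.W7.flowW R1b.upperS (fun a b m lam => R1a a b m lam) SZR2a.lowerA H467.pieS

/-- **The theorem.** -/
theorem diagW : WU924.DiagW :=
  WU924.diagW_of asmU PL4.lbl (PL3.lbi PL2.lEx) SZN3.lbcF SZN3.lbrF H467.NT.linS

end Vale.Agent.P181.DU
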